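import Mathlib

/-!
P067, local to global: counting weights on the faces of a uniform family of top faces, and the
hypotheses of the local-to-global theorem. Cochains over two elements are given by their supports.
-/

namespace Vale.Agent.P067.LG

open Finset

variable {V : Type*} [DecidableEq V]

/-- The faces with `k` vertices. -/
def fc (F : Finset (Finset V)) (k : ℕ) : Finset (Finset V) :=
  F.biUnion fun τ => τ.powersetCard k

/-- The number of top faces over a face. -/
def cnt (F : Finset (Finset V)) (σ : Finset V) : ℕ :=
  (F.filter fun τ => σ ⊆ τ).card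

/-- The mass of a set of faces. -/
def mass (F : Finset (Finset V)) (S : Finset (Finset V)) : ℝ :=
  ∑ σ ∈ S, (cnt F σ : ℝ)

/-- The coboundary of the support of a cochain on faces with `k` vertices. -/
def dlt (F : Finset (Finset V)) (k : ℕ) (S : Finset (Finset V)) : Finset (Finset V) :=
  (fc F (k + 1)).filter fun ρ => Odd (S.filter fun σ => σ ⊆ ρ).card

/-- The faces with `k` vertices over `τ`. -/
def star (F : Finset (Finset V)) (k : ℕ) (τ : Finset V) : Finset (Finset V) :=
  (fc F k).filter fun σ => τ ⊆ σ

/-- All links of nonempty faces are coboundary expanders, up to faces with `K` vertices. -/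
def LinkExp (F : Finset (Finset V)) (K : ℕ) (β : ℝ) : Prop :=
  ∀ τ : Finset V, τ.Nonempty → ∀ k : ℕ, τ.card < k → k ≤ K → ∀ T ⊆ star F k τ,
    ∃ U ⊆ star F (k - 1) τ, β * mass F (symmDiff T (dlt F (k - 1) U)) ≤ mass F (dlt F k T)

/-- All links (the empty face included) mix with error `lam`, up to faces with `K` vertices: the
edges spanned by a set of vertices of a link have mass at most that of the set times its density
plus the error. -/
def Mixing (F : Finset (Finset V)) (N K : ℕ) (lam : ℝ) : Prop :=
  ∀ τ ∈ fc F τ.card, τ.card < K → ∀ S ⊆ star F (τ.card + 1) τ,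
    mass F ((star F (τ.card + 2) τ).filter fun ρ => 2 ≤ (S.filter fun σ => σ ⊆ ρ).card) ≤
      (N : ℝ) * mass F S * (mass F S / (((N : ℝ) - τ.card) * cnt F τ) + lam)

/-- A set of faces is locally minimal: no coboundary supported over a nonempty face makes it
lighter. -/
def LocMin (F : Finset (Finset V)) (k : ℕ) (g : Finset (Finset V)) : Prop :=
  ∀ τ : Finset V, τ.Nonempty → ∀ U ⊆ star F (k - 1) τ,
    mass F g ≤ mass F (symmDiff g (dlt F (k - 1) U))

/-- Every nonempty face lies in at most `D` top faces. -/
def DegLE (F : Finset (Finset V)) (D : ℕ) : Prop :=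
  ∀ v : V, cnt F {v} ≤ D

end Vale.Agent.P067.LG
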