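import Vale.Agent.P067.LG.Defs

/-!
P067, local to global: elementary facts on faces, masses and coboundaries of supports.
-/

namespace Vale.Agent.P067.LG

open Finset

variable {V : Type*} [DecidableEq V] {F : Finset (Finset V)} {N : ℕ}

theorem mem_fc {k : ℕ} {σ : Finset V} : σ ∈ fc F k ↔ σ.card = k ∧ ∃ τ ∈ F, σ ⊆ τ := by
  simp only [fc, mem_biUnion, mem_powersetCard]
  constructor
  · rintro ⟨τ, hτ, hs, hc⟩
    exact ⟨hc, τ, hτ, hs⟩
  · rintro ⟨hc, τ, hτ, hs⟩
    exact ⟨τ, hτ, hs, hc⟩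

theorem card_of_mem {k : ℕ} {σ : Finset V} (h : σ ∈ fc F k) : σ.card = k := (mem_fc.1 h).1

theorem sub_mem_fc {k : ℕ} {σ ρ : Finset V} (h : ρ ∈ fc F k) (hs : σ ⊆ ρ) :
    σ ∈ fc F σ.card := by
  obtain ⟨-, τ, hτ, hρ⟩ := mem_fc.1 h
  exact mem_fc.2 ⟨rfl, τ, hτ, hs.trans hρ⟩

theorem sub_mem_fc' {k j : ℕ} {σ ρ : Finset V} (h : ρ ∈ fc F k) (hs : σ ⊆ ρ) (hc : σ.card = j) :
    σ ∈ fc F j := hc ▸ sub_mem_fc h hs

theorem cnt_pos {k : ℕ} {σ : Finset V} (h : σ ∈ fc F k) : 0 < cnt F σ := by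
  obtain ⟨-, τ, hτ, hs⟩ := mem_fc.1 h
  exact card_pos.2 ⟨τ, mem_filter.2 ⟨hτ, hs⟩⟩

theorem cnt_empty : cnt F ∅ = F.card := by simp [cnt]

theorem cnt_mono {σ ρ : Finset V} (h : σ ⊆ ρ) : cnt F ρ ≤ cnt F σ :=
  card_le_card (monotone_filter_right F fun _ _ hτ => h.trans hτ)

theorem mass_nonneg (S : Finset (Finset V)) : 0 ≤ mass F S :=
  sum_nonneg fun _ _ => Nat.cast_nonneg _

theorem mass_mono {S T : Finset (Finset V)} (h : S ⊆ T) : mass F S ≤ mass F T :=
  sum_le_sum_of_subset_of_nonneg h fun _ _ _ => Nat.cast_nonneg _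

theorem mass_union (S T : Finset (Finset V)) : mass F (S ∪ T) ≤ mass F S + mass F T := by
  have := sum_union_inter (s₁ := S) (s₂ := T) (f := fun σ => (cnt F σ : ℝ))
  have h := mass_nonneg (F := F) (S ∩ T)
  unfold mass at *
  linarith

theorem mass_biUnion {ι : Type*} (s : Finset ι) (f : ι → Finset (Finset V)) :
    mass F (s.biUnion f) ≤ ∑ i ∈ s, mass F (f i) := by
  classical
  induction s using Finset.induction_on with
  | empty => simp [mass]
  | insert a s ha ih =>
    rw [biUnion_insert, sum_insert ha]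
    exact (mass_union _ _).trans (by linarith)

theorem eq_empty_of_mass {k : ℕ} {S : Finset (Finset V)} (hS : S ⊆ fc F k) (h : mass F S ≤ 0) :
    S = ∅ := by
  by_contra hne
  obtain ⟨σ, hσ⟩ := nonempty_iff_ne_empty.2 hne
  have h1 : (0 : ℝ) < cnt F σ := by exact_mod_cast cnt_pos (hS hσ)
  have h2 : (cnt F σ : ℝ) ≤ mass F S :=
    single_le_sum (f := fun x => (cnt F x : ℝ)) (fun x _ => Nat.cast_nonneg _) hσ
  linarith

/-- The faces of one size over a face have mass at most a constant times that of the face. -/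
theorem mass_over (hN : ∀ τ ∈ F, τ.card = N) (σ : Finset V) (S : Finset (Finset V))
    (hS : ∀ ρ ∈ S, σ ⊆ ρ) : mass F S ≤ 2 ^ N * cnt F σ := by
  have key : ∑ ρ ∈ S, cnt F ρ ≤ 2 ^ N * cnt F σ := by
    calc ∑ ρ ∈ S, cnt F ρ
        = ∑ ρ ∈ S, ∑ τ ∈ F.filter (fun τ => σ ⊆ τ), (if ρ ⊆ τ then 1 else 0 : ℕ) := by
          refine sum_congr rfl fun ρ hρ => ?_
          rw [← sum_filter, sum_const, smul_eq_mul, mul_one, filter_filter, cnt]
          exact congrArg card (filter_congr fun τ _ =>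
            ⟨fun h => ⟨(hS ρ hρ).trans h, h⟩, fun h => h.2⟩)
      _ = ∑ τ ∈ F.filter (fun τ => σ ⊆ τ), (S.filter fun ρ => ρ ⊆ τ).card := by
          rw [sum_comm]
          exact sum_congr rfl fun τ _ => by rw [card_filter]
      _ ≤ ∑ τ ∈ F.filter (fun τ => σ ⊆ τ), 2 ^ N := by
          refine sum_le_sum fun τ hτ => ?_
          rw [← hN τ (mem_filter.1 hτ).1, ← card_powerset]
          exact card_le_card fun ρ hρ => mem_powerset.2 (mem_filter.1 hρ).2
      _ = 2 ^ N * cnt F σ := by rw [sum_const, smul_eq_mul, mul_comm, cnt]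
  unfold mass
  exact_mod_cast key

/-- Swapping the sum over containments. -/
theorem sum_mass_filter {ι : Type*} (s : Finset ι) (S : Finset (Finset V)) (P : ι → Finset V → Prop)
    [∀ i, DecidablePred (P i)] {c : ℕ} (hc : ∀ σ ∈ S, (s.filter fun i => P i σ).card ≤ c) :
    ∑ i ∈ s, mass F (S.filter (P i)) ≤ c * mass F S := by
  unfold mass
  simp only [sum_filter]
  rw [sum_comm, mul_sum]
  refine sum_le_sum fun σ hσ => ?_
  rw [← sum_filter, sum_const, nsmul_eq_mul]
  exact mul_le_mul_of_nonneg_right (by exact_mod_cast hc σ hσ) (Nat.cast_nonneg _)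

theorem mem_star {k : ℕ} {τ σ : Finset V} : σ ∈ star F k τ ↔ σ ∈ fc F k ∧ τ ⊆ σ := mem_filter

theorem dlt_subset (k : ℕ) (S : Finset (Finset V)) : dlt F k S ⊆ fc F (k + 1) := filter_subset _ _

theorem dlt_star {k : ℕ} {τ : Finset V} {S : Finset (Finset V)} (h : ∀ σ ∈ S, τ ⊆ σ) :
    dlt F k S ⊆ star F (k + 1) τ := fun ρ hρ => by
  obtain ⟨h1, h2⟩ := mem_filter.1 hρ
  obtain ⟨σ, hσ⟩ := card_pos.1 h2.pos
  exact mem_star.2 ⟨h1, (h σ (mem_filter.1 hσ).1).trans (mem_filter.1 hσ).2⟩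

/-- The parity of a symmetric difference. -/
theorem odd_card_symmDiff {α : Type*} [DecidableEq α] (A B : Finset α) :
    Odd (symmDiff A B).card ↔ ¬(Odd A.card ↔ Odd B.card) := by
  have h : (symmDiff A B).card + 2 * (A ∩ B).card = A.card + B.card := by
    rw [symmDiff_def, sup_eq_union, card_union_of_disjoint disjoint_sdiff_sdiff, two_mul]
    have h1 := card_sdiff_add_card_inter A B
    have h2 := card_sdiff_add_card_inter B A
    rw [inter_comm B A] at h2
    omega
  simp only [Nat.odd_iff]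
  omega

theorem dlt_symmDiff (k : ℕ) (A B : Finset (Finset V)) :
    dlt F k (symmDiff A B) = symmDiff (dlt F k A) (dlt F k B) := by
  ext ρ
  have e : (symmDiff A B).filter (fun σ => σ ⊆ ρ) =
      symmDiff (A.filter fun σ => σ ⊆ ρ) (B.filter fun σ => σ ⊆ ρ) := by
    ext σ
    simp only [mem_filter, mem_symmDiff]
    tauto
  simp only [dlt, mem_filter, mem_symmDiff, e, odd_card_symmDiff]
  tauto

theorem dlt_singleton {k : ℕ} (σ : Finset V) :
    dlt F k {σ} = (fc F (k + 1)).filter fun ρ => σ ⊆ ρ := by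
  refine filter_congr fun ρ _ => ?_
  by_cases h : σ ⊆ ρ <;> simp [filter_singleton, h]

/-- The coboundary squares to zero. -/
theorem dlt_dlt {k : ℕ} (S : Finset (Finset V)) (hS : S ⊆ fc F k) :
    dlt F (k + 1) (dlt F k S) = ∅ := by
  induction S using Finset.induction_on with
  | empty =>
    have : dlt F k ∅ = ∅ := filter_false_of_mem fun ρ _ => by simp
    rw [this]
    exact filter_false_of_mem fun ρ _ => by simp
  | insert a S ha ih =>
    have e : insert a S = symmDiff {a} S := by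
      ext x
      simp only [mem_insert, mem_symmDiff, mem_singleton]
      constructor
      · rintro (rfl | h)
        · exact Or.inl ⟨rfl, ha⟩
        · exact Or.inr ⟨h, fun e => ha (e ▸ h)⟩
      · rintro (⟨h, -⟩ | ⟨h, -⟩)
        · exact Or.inl h
        · exact Or.inr h
    have hbot : ((∅ : Finset (Finset V))) = ⊥ := rfl
    rw [e, dlt_symmDiff, dlt_symmDiff, ih ((subset_insert a S).trans hS), hbot, symmDiff_bot,
      ← hbot]
    refine filter_false_of_mem fun ρ hρ => ?_
    have hac := card_of_mem (hS (mem_insert_self a S))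
    by_cases hsub : a ⊆ ρ
    · have hcard : (ρ \ a).card = 2 := by
        rw [card_sdiff_of_subset hsub, card_of_mem hρ, hac]; omega
      have himg : (dlt F k {a}).filter (fun σ => σ ⊆ ρ) = (ρ \ a).image fun x => insert x a := by
        ext σ
        simp only [dlt_singleton, mem_filter, mem_image, mem_sdiff]
        constructor
        · rintro ⟨⟨hσ, haσ⟩, hσρ⟩
          have h1 : (σ \ a).card = 1 := by
            rw [card_sdiff_of_subset haσ, card_of_mem hσ, hac]; omega
          obtain ⟨x, hx⟩ := card_eq_one.1 h1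
          have hxs : x ∈ σ \ a := hx ▸ mem_singleton_self x
          refine ⟨x, ⟨hσρ (mem_sdiff.1 hxs).1, (mem_sdiff.1 hxs).2⟩, ?_⟩
          rw [insert_eq, ← hx, sdiff_union_of_subset haσ]
        · rintro ⟨x, ⟨hx, hxa⟩, rfl⟩
          have hs : insert x a ⊆ ρ := insert_subset hx hsub
          exact ⟨⟨sub_mem_fc' hρ hs (by rw [card_insert_of_notMem hxa, hac]), subset_insert x a⟩, hs⟩
      rw [himg, card_image_of_injOn, hcard]
      · decide
      · intro x hx y hy e
        have e2 : insert x a = insert y a := e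
        have : x ∈ insert y a := e2 ▸ mem_insert_self x a
        exact (mem_insert.1 this).resolve_right (mem_sdiff.1 hx).2
    · have : (dlt F k {a}).filter (fun σ => σ ⊆ ρ) = ∅ := by
        refine filter_false_of_mem fun σ hσ hσρ => hsub ?_
        rw [dlt_singleton] at hσ
        exact (mem_filter.1 hσ).2.trans hσρ
      rw [this]
      simp

/-- The faces with one vertex more over a face carry at least its mass. -/
theorem cnt_le_mass_succ (hN : ∀ τ ∈ F, τ.card = N) {k : ℕ} {σ : Finset V} (hσ : σ ∈ fc F k)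
    (hk : k < N) : (cnt F σ : ℝ) ≤ mass F ((fc F (k + 1)).filter fun ρ => σ ⊆ ρ) := by
  have key : cnt F σ ≤ ∑ ρ ∈ (fc F (k + 1)).filter (fun ρ => σ ⊆ ρ), cnt F ρ := by
    have hsub : F.filter (fun τ => σ ⊆ τ) ⊆
        ((fc F (k + 1)).filter fun ρ => σ ⊆ ρ).biUnion fun ρ => F.filter fun τ => ρ ⊆ τ := by
      intro τ hτ
      obtain ⟨hτF, hστ⟩ := mem_filter.1 hτ
      obtain ⟨ρ, h1, h2, h3⟩ := exists_subsuperset_card_eq hστ (n := k + 1)
        (by rw [card_of_mem hσ]; omega) (by rw [hN τ hτF]; omega)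
      exact mem_biUnion.2 ⟨ρ, mem_filter.2 ⟨mem_fc.2 ⟨h3, τ, hτF, h2⟩, h1⟩,
        mem_filter.2 ⟨hτF, h2⟩⟩
    exact (card_le_card hsub).trans card_biUnion_le
  unfold mass
  exact_mod_cast key

end Vale.Agent.P067.LG
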