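import Vale.Agent.P067.LG.Basic

/-!
P067, local to global: the fat faces under a support and the supports attached to them.
`s` counts the levels below the support, which consists of faces with `k` vertices.
-/

namespace Vale.Agent.P067.LG

open Finset

variable {V : Type*} [DecidableEq V] {F : Finset (Finset V)} {N k : ℕ} {η : ℝ}

/-- The growth of the fat levels. -/
noncomputable def grow (N : ℕ) (η : ℝ) : ℕ → ℝ
  | 0 => 1
  | s + 1 => grow N η s ^ 2 * (2 ^ N / η)

/-- The fat faces `s` levels below the support. -/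
noncomputable def fat (F : Finset (Finset V)) (N k : ℕ) (η : ℝ) (g : Finset (Finset V)) :
    ℕ → Finset (Finset V)
  | 0 => g
  | s + 1 => (fc F (k - (s + 1))).filter fun τ =>
      η / grow N η s * (((N : ℝ) - τ.card) * cnt F τ) ≤
        mass F ((fat F N k η g s).filter fun σ => τ ⊆ σ)

/-- The supports attached to a face through a chain of fat faces. -/
noncomputable def up (F : Finset (Finset V)) (N k : ℕ) (η : ℝ) (g : Finset (Finset V)) :
    ℕ → Finset V → Finset (Finset V)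
  | 0, τ => {τ}
  | s + 1, τ => ((fat F N k η g s).filter fun σ => τ ⊆ σ).biUnion (up F N k η g s)

/-- A face with one more vertex than the support in which some two fat faces of one level meet in
a face that is not fat. -/
noncomputable def bad (F : Finset (Finset V)) (N k : ℕ) (η : ℝ) (g : Finset (Finset V)) :
    Finset (Finset V) :=
  (range k).biUnion fun s => ((fc F (k - (s + 1))) \ fat F N k η g (s + 1)).biUnion fun τ =>
    ((star F (τ.card + 2) τ).filter fun e =>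
      2 ≤ (((fat F N k η g s).filter fun σ => τ ⊆ σ).filter fun σ => σ ⊆ e).card).biUnion
      fun e => (fc F (k + 1)).filter fun ρ => e ⊆ ρ

variable {g : Finset (Finset V)}

theorem fat_subset (hg : g ⊆ fc F k) : ∀ s, fat F N k η g s ⊆ fc F (k - s)
  | 0 => by simpa [fat] using hg
  | _ + 1 => filter_subset _ _

theorem up_subset : ∀ s τ, τ ∈ fat F N k η g s → up F N k η g s τ ⊆ g
  | 0, τ, h => by simpa [up, fat] using h
  | s + 1, τ, _ => biUnion_subset.2 fun σ hσ => up_subset s σ (mem_filter.1 hσ).1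

theorem up_over : ∀ s τ, ∀ σ ∈ up F N k η g s τ, τ ⊆ σ
  | 0, τ, σ, h => by simp [up] at h; simp [h]
  | s + 1, τ, σ, h => by
      obtain ⟨σ₁, h1, h2⟩ := mem_biUnion.1 h
      exact (mem_filter.1 h1).2.trans (up_over s σ₁ σ h2)

theorem up_mono {s : ℕ} {τ σ' : Finset V} (hσ' : σ' ∈ fat F N k η g s) (h : τ ⊆ σ') :
    up F N k η g s σ' ⊆ up F N k η g (s + 1) τ :=
  subset_biUnion_of_mem (up F N k η g s) (mem_filter.2 ⟨hσ', h⟩)

/-- Two fat faces of a good face that differ in one vertex meet in a fat face. -/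
theorem inter_fat (hg : g ⊆ fc F k) {ρ : Finset V} (hρ : ρ ∈ fc F (k + 1))
    (hgood : ρ ∉ bad F N k η g) {s : ℕ} (hs : s < k) {σ₁ σ₂ : Finset V}
    (h₁ : σ₁ ∈ fat F N k η g s) (h₂ : σ₂ ∈ fat F N k η g s) (hne : σ₁ ≠ σ₂) (r₁ : σ₁ ⊆ ρ)
    (r₂ : σ₂ ⊆ ρ) (hu : (σ₁ ∪ σ₂).card ≤ k - s + 1) :
    σ₁ ∩ σ₂ ∈ fat F N k η g (s + 1) := by
  have c₁ := card_of_mem (fat_subset hg s h₁)
  have c₂ := card_of_mem (fat_subset hg s h₂)
  have hi := card_union_add_card_inter σ₁ σ₂
  have hlt : (σ₁ ∩ σ₂).card < σ₁.card := by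
    refine card_lt_card (Finset.ssubset_iff_subset_ne.2 ⟨inter_subset_left, fun e => hne ?_⟩)
    exact eq_of_subset_of_card_le (e ▸ inter_subset_right) (by omega)
  have hc : (σ₁ ∩ σ₂).card = k - (s + 1) := by omega
  by_contra hnf
  refine hgood (mem_biUnion.2 ⟨s, mem_range.2 hs, mem_biUnion.2 ⟨σ₁ ∩ σ₂,
    mem_sdiff.2 ⟨sub_mem_fc' hρ (inter_subset_left.trans r₁) hc, hnf⟩,
    mem_biUnion.2 ⟨σ₁ ∪ σ₂, mem_filter.2 ⟨mem_star.2 ⟨sub_mem_fc' hρ (union_subset r₁ r₂) ?_,
      inter_subset_left.trans subset_union_left⟩, ?_⟩,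
      mem_filter.2 ⟨hρ, union_subset r₁ r₂⟩⟩⟩⟩)
  · omega
  · refine one_lt_card.2 ⟨σ₁, ?_, σ₂, ?_, hne⟩
    · simp [h₁, subset_union_left]
    · simp [h₂, subset_union_right]

/-- In a good face a support is attached wherever another support is, or below it. -/
theorem attach (hg : g ⊆ fc F k) {ρ : Finset V} (hρ : ρ ∈ fc F (k + 1))
    (hgood : ρ ∉ bad F N k η g) {σ σ' : Finset V} (hσ : σ ∈ g) (r : σ ⊆ ρ) (r' : σ' ⊆ ρ) :
    ∀ s b, s < k → b ∈ fat F N k η g s → σ' ∈ up F N k η g s b →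
      σ ∈ up F N k η g s b ∨
        ∃ τ ∈ fat F N k η g (s + 1), τ ⊆ b ∧ σ ∈ up F N k η g (s + 1) τ := by
  intro s
  induction s with
  | zero =>
    intro b hk hb hσ'
    obtain rfl : σ' = b := by simpa [up] using hσ'
    by_cases e : σ = σ'
    · exact Or.inl (by simp [up, e])
    · refine Or.inr ⟨σ ∩ σ', inter_fat hg hρ hgood hk (by simpa [fat] using hσ) hb e r r' ?_,
        inter_subset_right, up_mono (s := 0) (by simpa [fat] using hσ) inter_subset_left
          (by simp [up])⟩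
      have := card_le_card (union_subset r r')
      rw [card_of_mem hρ] at this
      omega
  | succ s ih =>
    intro b hk hb hσ'
    obtain ⟨σ₁, h1, h2⟩ := mem_biUnion.1 hσ'
    obtain ⟨h1f, hbσ⟩ := mem_filter.1 h1
    rcases ih σ₁ (by omega) h1f h2 with h | ⟨τ, hτ, hτσ, hστ⟩
    · exact Or.inl (mem_biUnion.2 ⟨σ₁, h1, h⟩)
    · by_cases e : τ = b
      · exact Or.inl (e ▸ hστ)
      · have hσ₁ρ : σ₁ ⊆ ρ := (up_over s σ₁ σ' h2).trans r'
        refine Or.inr ⟨τ ∩ b, inter_fat hg hρ hgood hk hτ hb e (hτσ.trans hσ₁ρ)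
          (hbσ.trans hσ₁ρ) ?_, inter_subset_right, up_mono hτ inter_subset_left hστ⟩
        have := card_le_card (union_subset hτσ hbσ)
        rw [card_of_mem (fat_subset hg s h1f)] at this
        omega

/-- Off the bad faces the coboundary of the supports attached to a bottom is that of the cochain. -/
theorem dlt_up_subset (hg : g ⊆ fc F k) {s : ℕ} (hs : s < k) {b : Finset V}
    (hb : b ∈ fat F N k η g s) (hbot : ∀ τ ∈ fat F N k η g (s + 1), ¬τ ⊆ b) :
    dlt F k (up F N k η g s b) ⊆ dlt F k g ∪ bad F N k η g := by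
  intro ρ hρ
  obtain ⟨hρf, hodd⟩ := mem_filter.1 hρ
  by_cases hgood : ρ ∈ bad F N k η g
  · exact mem_union_right _ hgood
  obtain ⟨σ', hσ'⟩ := card_pos.1 hodd.pos
  obtain ⟨hu', hr'⟩ := mem_filter.1 hσ'
  refine mem_union_left _ (mem_filter.2 ⟨hρf, ?_⟩)
  suffices e : (g.filter fun σ => σ ⊆ ρ) = (up F N k η g s b).filter fun σ => σ ⊆ ρ by
    rwa [e]
  ext σ
  simp only [mem_filter]
  constructor
  · rintro ⟨hσ, r⟩
    refine ⟨?_, r⟩
    rcases attach hg hρf hgood hσ r hr' s b hs hb hu' with h | ⟨τ, hτ, hτb, -⟩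
    · exact h
    · exact absurd hτb (hbot τ hτ)
  · rintro ⟨hσ, r⟩
    exact ⟨up_subset s b hb hσ, r⟩

/-- Every support is attached to a bottom, or the fat levels reach the last one. -/
theorem exists_bottom {σ : Finset V} (hσ : σ ∈ g) : ∀ s,
    (∃ t < s, ∃ b ∈ fat F N k η g t, (∀ τ ∈ fat F N k η g (t + 1), ¬τ ⊆ b) ∧
      σ ∈ up F N k η g t b) ∨ ∃ τ ∈ fat F N k η g s, σ ∈ up F N k η g s τ
  | 0 => Or.inr ⟨σ, by simpa [fat] using hσ, by simp [up]⟩
  | s + 1 => by
      rcases exists_bottom hσ s with ⟨t, ht, h⟩ | ⟨τ, hτ, hu⟩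
      · exact Or.inl ⟨t, by omega, h⟩
      · by_cases hb : ∀ τ' ∈ fat F N k η g (s + 1), ¬τ' ⊆ τ
        · exact Or.inl ⟨s, by omega, τ, hτ, hb, hu⟩
        · push Not at hb
          obtain ⟨τ', hτ', hsub⟩ := hb
          exact Or.inr ⟨τ', hτ', up_mono hτ hsub hu⟩

end Vale.Agent.P067.LG
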