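import Vale.Agent.P067.LG.Chain

/-!
P067, local to global: a small locally minimal cochain is bounded by its coboundary, hence every
cochain is at distance at most a constant times its coboundary from the cocycles.
-/

namespace Vale.Agent.P067.LG

open Finset

variable {V : Type*} [DecidableEq V] {F : Finset (Finset V)} {N k : ℕ} {η : ℝ}
  {g : Finset (Finset V)}

theorem one_le_grow (hη0 : 0 < η) (hη1 : η ≤ 1) : ∀ s, 1 ≤ grow N η s
  | 0 => le_rfl
  | s + 1 => by
      have h := one_le_grow hη0 hη1 s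
      have h2 : (1 : ℝ) ≤ 2 ^ N := one_le_pow₀ one_le_two
      exact one_le_mul_of_one_le_of_one_le (one_le_pow₀ h) ((one_le_div hη0).2 (hη1.trans h2))

theorem grow_mono (hη0 : 0 < η) (hη1 : η ≤ 1) {s t : ℕ} (h : s ≤ t) :
    grow N η s ≤ grow N η t := by
  induction t, h using Nat.le_induction with
  | base => exact le_rfl
  | succ t _ ih =>
    refine ih.trans ?_
    have h := one_le_grow (N := N) hη0 hη1 t
    have h2 : 1 ≤ (2 : ℝ) ^ N / η := (one_le_div hη0).2 (hη1.trans (one_le_pow₀ one_le_two))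
    calc grow N η t = grow N η t * 1 * 1 := by ring
      _ ≤ grow N η t * grow N η t * ((2 : ℝ) ^ N / η) := by gcongr
      _ = grow N η (t + 1) := by rw [grow]; ring

theorem subsets_le {σ : Finset V} (hσ : σ.card ≤ N) (T : Finset (Finset V)) :
    (T.filter fun τ => τ ⊆ σ).card ≤ 2 ^ N :=
  (card_le_card fun τ hτ => mem_powerset.2 (mem_filter.1 hτ).2).trans
    ((card_powerset σ).le.trans (Nat.pow_le_pow_right (by norm_num) hσ))

theorem mass_fat (hη0 : 0 < η) (hη1 : η ≤ 1) (hg : g ⊆ fc F k) (hk : k < N) :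
    ∀ s, mass F (fat F N k η g s) ≤ grow N η s * mass F g
  | 0 => by simp [fat, grow]
  | s + 1 => by
      have ih := mass_fat hη0 hη1 hg hk s
      have hM := one_le_grow (N := N) hη0 hη1 s
      have hsum : η / grow N η s * mass F (fat F N k η g (s + 1)) ≤
          (2 ^ N : ℕ) * mass F (fat F N k η g s) := by
        calc η / grow N η s * mass F (fat F N k η g (s + 1))
            ≤ ∑ τ ∈ fat F N k η g (s + 1),
                mass F ((fat F N k η g s).filter fun σ => τ ⊆ σ) := by
              rw [mass, mul_sum]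
              refine sum_le_sum fun τ hτ => ?_
              obtain ⟨hτf, hle⟩ := mem_filter.1 hτ
              refine le_trans (mul_le_mul_of_nonneg_left ?_ (by positivity)) hle
              refine le_mul_of_one_le_left (Nat.cast_nonneg _) ?_
              have h1 : τ.card + 1 ≤ N := by rw [card_of_mem hτf]; omega
              have h2 : ((τ.card + 1 : ℕ) : ℝ) ≤ N := by exact_mod_cast h1
              push_cast at h2
              linarith
          _ ≤ _ := sum_mass_filter _ _ _ fun σ hσ =>
              subsets_le ((card_of_mem (fat_subset hg s hσ)).le.trans (by omega)) _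
      rw [div_mul_eq_mul_div, div_le_iff₀ (by linarith)] at hsum
      push_cast at hsum
      have hgoal : η * mass F (fat F N k η g (s + 1)) ≤ η * (grow N η (s + 1) * mass F g) := by
        refine hsum.trans ?_
        rw [grow]
        calc (2 : ℝ) ^ N * mass F (fat F N k η g s) * grow N η s
            ≤ 2 ^ N * (grow N η s * mass F g) * grow N η s := by gcongr
          _ = η * (grow N η s ^ 2 * (2 ^ N / η) * mass F g) := by field_simp
      exact le_of_mul_le_mul_left hgoal hη0

theorem mass_bad {lam : ℝ} {K : ℕ} (hη0 : 0 < η) (hη1 : η ≤ 1) (hlam : 0 ≤ lam)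
    (hN : ∀ τ ∈ F, τ.card = N) (hM : Mixing F N K lam) (hg : g ⊆ fc F k) (hk : k < N)
    (hK : k ≤ K) :
    mass F (bad F N k η g) ≤
      k * ((2 : ℝ) ^ N * 2 ^ N * N * (η + lam * grow N η k)) * mass F g := by
  refine (mass_biUnion _ _).trans ((sum_le_card_nsmul _ _
    ((2 : ℝ) ^ N * 2 ^ N * N * (η + lam * grow N η k) * mass F g) fun s hs => ?_).trans_eq
      (by rw [card_range, nsmul_eq_mul]; ring))
  have hsk := mem_range.1 hs
  have hM1 := one_le_grow (N := N) hη0 hη1 s
  set T := fc F (k - (s + 1)) \ fat F N k η g (s + 1) with hT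
  set S := fun τ => (fat F N k η g s).filter fun σ => τ ⊆ σ with hS
  calc _ ≤ ∑ τ ∈ T, (2 : ℝ) ^ N * (N * mass F (S τ) * (η / grow N η s + lam)) := by
        refine (mass_biUnion _ _).trans (sum_le_sum fun τ hτ => ?_)
        obtain ⟨hτf, hτn⟩ := mem_sdiff.1 hτ
        have hτc := card_of_mem hτf
        refine (mass_biUnion _ _).trans ((sum_le_sum fun e _ =>
          mass_over hN e _ fun ρ hρ => (mem_filter.1 hρ).2).trans ?_)
        rw [← mul_sum]
        refine mul_le_mul_of_nonneg_left ?_ (by positivity)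
        refine (hM τ (hτc ▸ hτf) (by omega) (S τ) fun σ hσ => ?_).trans ?_
        · refine mem_star.2 ⟨?_, (mem_filter.1 hσ).2⟩
          have := fat_subset hg s (mem_filter.1 hσ).1
          rwa [hτc, show k - (s + 1) + 1 = k - s by omega]
        · refine mul_le_mul_of_nonneg_left ?_ (mul_nonneg (Nat.cast_nonneg _) (mass_nonneg _))
          have hlt : mass F (S τ) < η / grow N η s * (((N : ℝ) - τ.card) * cnt F τ) := by
            refine lt_of_not_ge fun h => hτn (mem_filter.2 ⟨hτf, h⟩)
          have hc : (0 : ℝ) < cnt F τ := by exact_mod_cast cnt_pos hτf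
          have hN' : (τ.card : ℝ) < N := by exact_mod_cast (show τ.card < N by omega)
          have := ((div_lt_iff₀ (mul_pos (sub_pos.2 hN') hc)).2 hlt).le
          linarith
    _ = (2 : ℝ) ^ N * N * (η / grow N η s + lam) * ∑ τ ∈ T, mass F (S τ) := by
        rw [mul_sum]; exact sum_congr rfl fun τ _ => by ring
    _ ≤ (2 : ℝ) ^ N * N * (η / grow N η s + lam) * ((2 ^ N : ℕ) * (grow N η s * mass F g)) := by
        refine mul_le_mul_of_nonneg_left ((sum_mass_filter _ _ _ fun σ hσ =>
          subsets_le (N := N) ((card_of_mem (fat_subset hg s hσ)).le.trans (by omega)) _).trans ?_)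
          (by positivity)
        exact mul_le_mul_of_nonneg_left (mass_fat hη0 hη1 hg hk s) (Nat.cast_nonneg _)
    _ = (2 : ℝ) ^ N * 2 ^ N * N * (η + lam * grow N η s) * mass F g := by
        push_cast; field_simp
    _ ≤ _ := by
        have := mass_nonneg (F := F) g
        gcongr
        exact grow_mono hη0 hη1 hsk.le

/-- The fat levels do not reach the empty face. -/
theorem fat_last (hη0 : 0 < η) (hη1 : η ≤ 1) (hg : g ⊆ fc F k) (hk0 : 0 < k) (hk : k < N)
    (hsmall : mass F g < η / grow N η k ^ 2 * N * F.card) : fat F N k η g k = ∅ := by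
  obtain ⟨m, rfl⟩ : ∃ m, k = m + 1 := ⟨k - 1, by omega⟩
  by_contra hne
  obtain ⟨τ, hτ⟩ := nonempty_iff_ne_empty.2 hne
  obtain ⟨hτf, hle⟩ := mem_filter.1 hτ
  obtain rfl : τ = ∅ := card_eq_zero.1 (by rw [card_of_mem hτf]; omega)
  simp only [card_empty, Nat.cast_zero, sub_zero, cnt_empty] at hle
  have h1 : mass F ((fat F N (m + 1) η g m).filter fun σ => ∅ ⊆ σ) ≤ grow N η m * mass F g :=
    (mass_mono (filter_subset _ _)).trans (mass_fat hη0 hη1 hg hk m)
  have hm1 := one_le_grow (N := N) hη0 hη1 m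
  have hmm := grow_mono (N := N) hη0 hη1 (show m ≤ m + 1 by omega)
  have h2 : η / grow N η (m + 1) ^ 2 * N * F.card ≤ η / grow N η m ^ 2 * N * F.card := by gcongr
  have h3 : η / grow N η m * ((N : ℝ) * F.card) ≤ grow N η m * mass F g := hle.trans h1
  have h4 : η / grow N η m ^ 2 * N * F.card ≤ mass F g := by
    rw [show η / grow N η m ^ 2 * N * F.card =
      (η / grow N η m * ((N : ℝ) * F.card)) / grow N η m by field_simp]
    rw [div_le_iff₀ (by linarith)]
    linarith
  linarith

/-- Link expansion bounds the supports attached to a bottom. -/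
theorem mass_up {β : ℝ} {K : ℕ} (hβ0 : 0 < β) (hβ1 : β ≤ 1) (hN : ∀ τ ∈ F, τ.card = N)
    (hL : LinkExp F K β) (hmin : LocMin F k g) (hg : g ⊆ fc F k) (hk : k < N) (hK : k ≤ K)
    {s : ℕ} (hs : s < k) {b : Finset V} (hb : b ∈ fat F N k η g s) :
    β * mass F (up F N k η g s b) ≤ mass F (dlt F k (up F N k η g s b)) := by
  have hbc := card_of_mem (fat_subset hg s hb)
  have hne : b.Nonempty := card_pos.1 (by omega)
  have hsub := up_subset s b hb
  match s with
  | 0 =>
    have hbg : b ∈ fc F k := hg (by simpa [fat] using hb)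
    have h := cnt_le_mass_succ hN hbg hk
    simp only [up, dlt_singleton, mass, sum_singleton] at h ⊢
    have : β * (cnt F b : ℝ) ≤ cnt F b := mul_le_of_le_one_left (Nat.cast_nonneg _) hβ1
    linarith
  | s + 1 =>
    obtain ⟨U, hU, hle⟩ := hL b hne k (by omega) hK _ fun σ hσ =>
      mem_star.2 ⟨hg (hsub hσ), up_over _ b σ hσ⟩
    refine le_trans (mul_le_mul_of_nonneg_left ?_ hβ0.le) hle
    set T := up F N k η g (s + 1) b
    have h1 := hmin b hne U hU
    have h2 : symmDiff g (dlt F (k - 1) U) ⊆ (g \ T) ∪ symmDiff T (dlt F (k - 1) U) := by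
      intro x
      simp only [mem_symmDiff, mem_union, mem_sdiff]
      intro hx
      by_cases hxT : x ∈ T
      · have := hsub hxT; tauto
      · tauto
    have h3 := (mass_mono (F := F) h2).trans (mass_union _ _)
    have h4 : mass F (g \ T) + mass F T = mass F g := sum_sdiff hsub
    linarith

open Classical in
/-- The fat faces of a level with no fat face of the next level under them. -/
noncomputable def bottoms (F : Finset (Finset V)) (N k : ℕ) (η : ℝ) (g : Finset (Finset V))
    (s : ℕ) : Finset (Finset V) :=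
  (fat F N k η g s).filter fun b => ∀ τ ∈ fat F N k η g (s + 1), ¬τ ⊆ b

theorem mem_bottoms {s : ℕ} {b : Finset V} : b ∈ bottoms F N k η g s ↔
    b ∈ fat F N k η g s ∧ ∀ τ ∈ fat F N k η g (s + 1), ¬τ ⊆ b := by
  classical
  simp [bottoms]

/-- A small locally minimal cochain is bounded by its coboundary. -/
theorem locMin_bound.{u} {β : ℝ} (hβ : 0 < β) (N : ℕ) :
    ∃ lam₀ : ℝ, 0 < lam₀ ∧ ∃ ε₀ : ℝ, 0 < ε₀ ∧ ∃ C : ℝ, 0 < C ∧
      ∀ {V : Type u} [DecidableEq V] (F : Finset (Finset V)), (∀ τ ∈ F, τ.card = N) →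
        ∀ K, LinkExp F K β →
        Mixing F N K lam₀ → ∀ k, 0 < k → k ≤ K → k < N → ∀ g ⊆ fc F k, LocMin F k g →
          mass F g < ε₀ * F.card → mass F g ≤ C * mass F (dlt F k g) := by
  set β' := min β 1 with hβ'
  have hb0 : 0 < β' := lt_min hβ one_pos
  set A : ℝ := 2 ^ N * ((N : ℝ) * (2 ^ N * 2 ^ N * N)) * 4 + 1 with hA
  have hA1 : 1 ≤ A := le_add_of_nonneg_left (by positivity)
  set η := β' / A with hη
  have hη0 : 0 < η := by positivity
  have hη1 : η ≤ 1 := (div_le_one (by positivity)).2 ((min_le_right β 1).trans hA1)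
  have hG := one_le_grow (N := N) hη0 hη1 N
  refine ⟨η / grow N η N, by positivity, η / grow N η N ^ 2, by positivity,
    2 * 2 ^ N / β', by positivity, fun {V} _ F hF K hL hM k hk0 hkK hkN g hg hmin hsmall => ?_⟩
  have hgk := grow_mono (N := N) hη0 hη1 hkN.le
  have hk1 := one_le_grow (N := N) hη0 hη1 k
  have hlast : fat F N k η g k = ∅ := by
    refine fat_last hη0 hη1 hg hk0 hkN (hsmall.trans_le ?_)
    have h1 : (1 : ℝ) ≤ N := by exact_mod_cast (show 1 ≤ N by omega)
    calc η / grow N η N ^ 2 * F.card ≤ η / grow N η k ^ 2 * 1 * F.card := by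
          rw [mul_one]; gcongr
      _ ≤ _ := by gcongr
  set Bad := bad F N k η g
  let bot : ℕ → Finset (Finset V) := fun s => bottoms F N k η g s
  have hcover : g ⊆ (range k).biUnion fun s => (bot s).biUnion (up F N k η g s) := by
    intro σ hσ
    rcases exists_bottom (F := F) (N := N) (k := k) (η := η) hσ k with
      ⟨t, ht, b, hb, hbb, hu⟩ | ⟨τ, hτ, -⟩
    · exact mem_biUnion.2 ⟨t, mem_range.2 ht, mem_biUnion.2 ⟨b, mem_bottoms.2 ⟨hb, hbb⟩, hu⟩⟩
    · simp [hlast] at hτ
  set W := dlt F k g ∪ Bad with hW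
  have hL' : ∀ s ∈ range k, ∀ b ∈ bot s, β' * mass F (up F N k η g s b) ≤
      mass F (W.filter fun ρ => b ⊆ ρ) := by
    intro s hs b hb
    obtain ⟨hbf, hbb⟩ := mem_bottoms.1 hb
    have hsk := mem_range.1 hs
    have hLβ : LinkExp F K β' := fun τ hτ j h1 h2 T hT => by
      obtain ⟨U, hU, hle⟩ := hL τ hτ j h1 h2 T hT
      exact ⟨U, hU, le_trans (mul_le_mul_of_nonneg_right (min_le_left _ _) (mass_nonneg _)) hle⟩
    refine (mass_up hb0 (min_le_right _ _) hF hLβ hmin hg hkN hkK hsk hbf).trans (mass_mono ?_)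
    intro ρ hρ
    exact mem_filter.2 ⟨dlt_up_subset hg hsk hbf hbb hρ,
      (mem_star.1 (dlt_star (up_over s b) hρ)).2⟩
  have hWc : ∀ ρ ∈ W, ρ.card ≤ N := by
    intro ρ hρ
    have : ρ ∈ fc F (k + 1) := by
      rcases mem_union.1 hρ with h | h
      · exact dlt_subset _ _ h
      · simp only [Bad, bad, mem_biUnion] at h
        obtain ⟨s, -, τ, -, e, -, h⟩ := h
        exact (mem_filter.1 h).1
    rw [card_of_mem this]; omega
  have htot : β' * mass F g ≤ 2 ^ N * (mass F (dlt F k g) + mass F Bad) := by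
    calc β' * mass F g ≤ β' * ∑ s ∈ range k, ∑ b ∈ bot s, mass F (up F N k η g s b) := by
          refine mul_le_mul_of_nonneg_left ((mass_mono hcover).trans ?_) hb0.le
          exact (mass_biUnion _ _).trans (sum_le_sum fun s _ => mass_biUnion _ _)
      _ ≤ ∑ s ∈ range k, ∑ b ∈ bot s, mass F (W.filter fun ρ => b ⊆ ρ) := by
          rw [mul_sum]
          exact sum_le_sum fun s hs => by rw [mul_sum]; exact sum_le_sum (hL' s hs)
      _ = ∑ b ∈ (range k).biUnion bot, mass F (W.filter fun ρ => b ⊆ ρ) := by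
          rw [sum_biUnion]
          intro s hs t ht hst
          refine disjoint_left.2 fun b h1 h2 => hst ?_
          have e1 := card_of_mem (fat_subset hg s (mem_bottoms.1 h1).1)
          have e2 := card_of_mem (fat_subset hg t (mem_bottoms.1 h2).1)
          simp only [coe_range, Set.mem_Iio] at hs ht
          omega
      _ ≤ (2 ^ N : ℕ) * mass F W := sum_mass_filter _ _ _ fun ρ hρ => subsets_le (hWc ρ hρ) _
      _ ≤ _ := by
          push_cast
          exact mul_le_mul_of_nonneg_left (mass_union _ _) (by positivity)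
  have hbad : 2 ^ N * mass F Bad ≤ β' / 2 * mass F g := by
    have h := mass_bad hη0 hη1 (by positivity) hF hM hg hkN hkK
    have hl : η / grow N η N * grow N η k ≤ η := by
      rw [div_mul_eq_mul_div, div_le_iff₀ (by linarith)]
      exact mul_le_mul_of_nonneg_left hgk hη0.le
    have hkN' : (k : ℝ) ≤ N := by exact_mod_cast hkN.le
    have hgn := mass_nonneg (F := F) g
    calc (2 : ℝ) ^ N * mass F Bad
        ≤ 2 ^ N * ((N : ℝ) * (2 ^ N * 2 ^ N * N * (2 * η)) * mass F g) := by
          refine mul_le_mul_of_nonneg_left (h.trans ?_) (by positivity)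
          gcongr
          linarith
      _ = (A - 1) / 2 * η * mass F g := by rw [hA]; ring
      _ ≤ A / 2 * η * mass F g := by gcongr; linarith
      _ = β' / 2 * mass F g := by rw [hη]; field_simp
  rw [div_mul_eq_mul_div, le_div_iff₀ hb0]
  linarith

/-- One step of local minimisation costs at most a constant times its gain; so every cochain with
small coboundary is near the cocycles. -/
theorem cosystolic.{u} {β : ℝ} (hβ : 0 < β) (N : ℕ) :
    ∃ lam₀ : ℝ, 0 < lam₀ ∧ ∀ D : ℕ, ∃ C : ℝ, 0 < C ∧
      ∀ {V : Type u} [DecidableEq V] (F : Finset (Finset V)), (∀ τ ∈ F, τ.card = N) → DegLE F D →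
        ∀ K, LinkExp F K β →
        Mixing F N K lam₀ → ∀ k, k + 1 ≤ K → k + 1 < N → ∀ f ⊆ fc F k,
          ∃ z ⊆ fc F k, dlt F k z = ∅ ∧ mass F (symmDiff f z) ≤ C * mass F (dlt F k f) := by
  obtain ⟨lam₀, hl, ε₀, hε, C₀, hC₀, hloc⟩ := locMin_bound.{u} hβ N
  refine ⟨lam₀, hl, fun D => ?_⟩
  set C : ℝ := max ((2 : ℝ) ^ N * D) ((2 : ℝ) ^ N / ε₀) + 1 with hC
  have hCpos : 0 < C := by positivity
  refine ⟨C, hCpos, fun {V} _ F hF hD K hL hM k hkK hkN f hf => ?_⟩
  have hfull : ∀ S ⊆ fc F k, mass F S ≤ 2 ^ N * F.card := fun S _ => by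
    have := mass_over hF ∅ S fun ρ _ => empty_subset ρ
    rwa [cnt_empty] at this
  have hint : ∀ S, mass F S = ((∑ σ ∈ S, cnt F σ : ℕ) : ℝ) := fun S => by simp [mass]
  suffices key : ∀ m (f : Finset (Finset V)), f ⊆ fc F k → (∑ σ ∈ dlt F k f, cnt F σ) = m →
      ∃ z ⊆ fc F k, dlt F k z = ∅ ∧ mass F (symmDiff f z) ≤ C * mass F (dlt F k f) from
    key _ f hf rfl
  intro m
  induction m using Nat.strong_induction_on with
  | _ m ih =>
    intro f hf hm
    by_cases hbig : ε₀ * F.card ≤ mass F (dlt F k f)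
    · refine ⟨∅, empty_subset _, filter_false_of_mem fun ρ _ => by simp, ?_⟩
      have hb : (∅ : Finset (Finset V)) = ⊥ := rfl
      rw [hb, symmDiff_bot]
      calc mass F f ≤ 2 ^ N * F.card := hfull f hf
        _ = 2 ^ N / ε₀ * (ε₀ * F.card) := by field_simp
        _ ≤ C * mass F (dlt F k f) := mul_le_mul
            ((le_max_right _ _).trans (le_add_of_nonneg_right zero_le_one)) hbig (by positivity)
            hCpos.le
    · by_cases hmin : LocMin F (k + 1) (dlt F k f)
      · have h := hloc F hF K hL hM (k + 1) (by omega) hkK hkN _ (dlt_subset k f) hmin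
          (lt_of_not_ge hbig)
        rw [dlt_dlt f hf] at h
        have h0 : dlt F k f = ∅ := eq_empty_of_mass (dlt_subset k f) (by simpa [mass] using h)
        refine ⟨f, hf, h0, ?_⟩
        rw [symmDiff_self]
        simp [mass, h0]
      · unfold LocMin at hmin
        push Not at hmin
        obtain ⟨τ, hτ, U, hU, hlt⟩ := hmin
        simp only [Nat.add_sub_cancel] at hU hlt
        have hUf : U ⊆ fc F k := fun u hu => (mem_star.1 (hU hu)).1
        set f' := symmDiff f U
        have hf' : f' ⊆ fc F k := fun x hx => by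
          rcases mem_symmDiff.1 hx with ⟨h, -⟩ | ⟨h, -⟩
          exacts [hf h, hUf h]
        have hd : dlt F k f' = symmDiff (dlt F k f) (dlt F k U) := dlt_symmDiff _ _ _
        have hlt' : (∑ σ ∈ dlt F k f', cnt F σ) < m := by
          rw [hint, hint, ← hd, Nat.cast_lt] at hlt
          omega
        obtain ⟨z, hz, hz0, hle⟩ := ih _ hlt' f' hf' rfl
        refine ⟨z, hz, hz0, ?_⟩
        obtain ⟨v, hv⟩ := hτ
        have hUm : mass F U ≤ 2 ^ N * D := by
          refine (mass_over hF {v} U fun u hu => singleton_subset_iff.2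
            ((mem_star.1 (hU hu)).2 hv)).trans ?_
          have : (cnt F {v} : ℝ) ≤ D := by exact_mod_cast hD v
          exact mul_le_mul_of_nonneg_left this (by positivity)
        have htri : mass F (symmDiff f z) ≤ mass F U + mass F (symmDiff f' z) := by
          refine (mass_mono ?_).trans (mass_union _ _)
          intro x hx
          simp only [f', mem_union, mem_symmDiff] at hx ⊢
          tauto
        have hgain : mass F (dlt F k f') + 1 ≤ mass F (dlt F k f) := by
          rw [hint, hint, hm]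
          exact_mod_cast hlt'
        have hC2 : (2 : ℝ) ^ N * D ≤ C := (le_max_left _ _).trans (le_add_of_nonneg_right zero_le_one)
        have := mul_le_mul_of_nonneg_left hgain hCpos.le
        linarith

end Vale.Agent.P067.LG
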